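import Vale.Agent.P278.H837.Local

/-!
# Integrability of the partial sums
-/

set_option linter.all false

open Topology Set Filter Module
open scoped ContDiff Manifold

namespace Vale.Agent.P278.H837

open Vale.Agent.P278.StmtF Vale.Agent.P278

universe u v

variable {E : Type*} [NormedAddCommGroup E] [NormedSpace ℂ E]
  {X : Type*} [TopologicalSpace X] [ChartedSpace E X] [IsManifold 𝓘(ℂ, E) ω X]
  {k : ℕ} {A : Fin k → Type} [∀ i, NormedAddCommGroup (A i)] [∀ i, NormedSpace ℂ (A i)]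
  {F : Fin k → Dist E X} {ψ : OpenPartialHomeomorph X (∀ i, A i)}

set_option backward.isDefEq.respectTransparency false in
theorem IsLocProd.symm_inverse (h : IsLocProd F ψ) {x : X} (hx : x ∈ ψ.source)
    (w : TangentSpace 𝓘(ℂ, E) x) :
    (mfderiv 𝓘(ℂ, ∀ i, A i) 𝓘(ℂ, E) ψ.symm (ψ x)).inverse w = h.d hx w := by
  have h1 : mfderiv 𝓘(ℂ, ∀ i, A i) 𝓘(ℂ, E) ψ.symm (ψ x) = ((h.mdiff.mfderiv hx).symm :
      TangentSpace 𝓘(ℂ, ∀ i, A i) (ψ x) →L[ℂ] TangentSpace 𝓘(ℂ, E) x) := rfl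
  rw [h1, ContinuousLinearMap.inverse_equiv]
  rfl

/-- a differentiable map with a vanishing coordinate -/
theorem fderiv_coord_zero {V : (∀ i, A i) → (∀ i, A i)} {p : ∀ i, A i}
    (hV : DifferentiableAt ℂ V p) (j : Fin k) (h0 : ∀ᶠ q in 𝓝 p, V q j = 0) (w : ∀ i, A i) :
    fderiv ℂ V p w j = 0 := by
  have h1 := (hasFDerivAt_pi'.1 hV.hasFDerivAt) j
  have h2 : HasFDerivAt (fun q => V q j) (0 : (∀ i, A i) →L[ℂ] A j) p :=
    (hasFDerivAt_const (0 : A j) p).congr_of_eventuallyEq h0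
  have h3 := h1.unique h2
  exact congrArg (fun L => L w) h3

theorem IsLocProd.bracket [CompleteSpace E] [∀ i, CompleteSpace (A i)] (h : IsLocProd F ψ)
    (I : Set (Fin k)) (U : Set X) (V W : ∀ x : X, TangentSpace 𝓘(ℂ, E) x) (hU : IsOpen U)
    (hV : IsHolSec (fun x => ⨆ i ∈ I, F i x) U V) (hW : IsHolSec (fun x => ⨆ i ∈ I, F i x) U W)
    {x : X} (hxU : x ∈ U) (hx : x ∈ ψ.source) :
    VectorField.mlieBracket 𝓘(ℂ, E) V W x ∈ ⨆ i ∈ I, F i x := by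
  rw [h.mem_sup hx]
  intro j hj
  set p : ∀ i, A i := ψ x with hp
  have hpt : p ∈ ψ.target := ψ.map_source hx
  have hsp : ψ.symm p = x := ψ.left_inv hx
  -- the fields in the chart
  let V' : (∀ i, A i) → (∀ i, A i) := VectorField.mpullback 𝓘(ℂ, ∀ i, A i) 𝓘(ℂ, E) ψ.symm V
  let W' : (∀ i, A i) → (∀ i, A i) := VectorField.mpullback 𝓘(ℂ, ∀ i, A i) 𝓘(ℂ, E) ψ.symm W
  have hval : ∀ (V : ∀ x : X, TangentSpace 𝓘(ℂ, E) x) (y : X) (hy : y ∈ ψ.source),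
      (VectorField.mpullback 𝓘(ℂ, ∀ i, A i) 𝓘(ℂ, E) ψ.symm V (ψ y) : ∀ i, A i) =
        h.d hy (V y) := by
    intro V y hy
    show (mfderiv 𝓘(ℂ, ∀ i, A i) 𝓘(ℂ, E) ψ.symm (ψ y)).inverse (V (ψ.symm (ψ y))) = _
    rw [← h.symm_inverse hy (V y), ψ.left_inv hy]
  have hnear : ∀ᶠ q in 𝓝 p, q ∈ ψ.target ∧ ψ.symm q ∈ U :=
    (ψ.isOpen_inter_preimage_symm hU).mem_nhds ⟨hpt, by
      show ψ.symm p ∈ U
      rw [hsp]; exact hxU⟩
  have hzero : ∀ (V : ∀ x : X, TangentSpace 𝓘(ℂ, E) x),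
      IsHolSec (fun x => ⨆ i ∈ I, F i x) U V →
      ∀ᶠ q in 𝓝 p, (VectorField.mpullback 𝓘(ℂ, ∀ i, A i) 𝓘(ℂ, E) ψ.symm V q : ∀ i, A i) j = 0 := by
    intro V hV
    filter_upwards [hnear] with q hq
    have h1 := hval V (ψ.symm q) (ψ.map_target hq.1)
    rw [ψ.right_inv hq.1] at h1
    rw [h1]
    exact (h.mem_sup (ψ.map_target hq.1) I _).1 (hV.2 _ hq.2) j hj
  have hdiff : ∀ (V : ∀ x : X, TangentSpace 𝓘(ℂ, E) x),
      IsHolSec (fun x => ⨆ i ∈ I, F i x) U V →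
      DifferentiableAt ℂ (VectorField.mpullback 𝓘(ℂ, ∀ i, A i) 𝓘(ℂ, E) ψ.symm V :
        (∀ i, A i) → (∀ i, A i)) p := by
    intro V hV
    have h1 : ContDiffAt ℂ ω (VectorField.mpullback 𝓘(ℂ, ∀ i, A i) 𝓘(ℂ, E) ψ.symm V :
        (∀ i, A i) → (∀ i, A i)) p := by
      rw [← contMDiffAt_vectorSpace_iff_contDiffAt]
      refine ContMDiffAt.mpullback_vectorField_preimage (n := ω) ?_ ?_ ?_ (by simp)
      · rw [hsp]
        exact hV.1.contMDiffAt (hU.mem_nhds hxU)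
      · exact h.smooth_symm.contMDiffAt (ψ.open_target.mem_nhds hpt)
      · exact ⟨(h.mdiff.mfderiv hx).symm, rfl⟩
    exact h1.differentiableAt (by simp)
  have hbr : VectorField.mpullback 𝓘(ℂ, ∀ i, A i) 𝓘(ℂ, E) ψ.symm
      (VectorField.mlieBracket 𝓘(ℂ, E) V W) p =
      VectorField.mlieBracket 𝓘(ℂ, ∀ i, A i)
        (VectorField.mpullback 𝓘(ℂ, ∀ i, A i) 𝓘(ℂ, E) ψ.symm V)
        (VectorField.mpullback 𝓘(ℂ, ∀ i, A i) 𝓘(ℂ, E) ψ.symm W) p := by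
    refine VectorField.mpullback_mlieBracket (n := ω) ?_ ?_ ?_ (by simp)
    · rw [hsp]
      exact (hV.1.contMDiffAt (hU.mem_nhds hxU)).mdifferentiableAt (by simp)
    · rw [hsp]
      exact (hW.1.contMDiffAt (hU.mem_nhds hxU)).mdifferentiableAt (by simp)
    · exact h.smooth_symm.contMDiffAt (ψ.open_target.mem_nhds hpt)
  have h1 := hval (VectorField.mlieBracket 𝓘(ℂ, E) V W) x hx
  rw [← h1]
  have h2 : (VectorField.mpullback 𝓘(ℂ, ∀ i, A i) 𝓘(ℂ, E) ψ.symm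
      (VectorField.mlieBracket 𝓘(ℂ, E) V W) p : ∀ i, A i) = VectorField.lieBracket ℂ V' W' p := by
    rw [hbr]
    exact mlieBracket_eq_lieBracket' V' W' p
  show (VectorField.mpullback 𝓘(ℂ, ∀ i, A i) 𝓘(ℂ, E) ψ.symm
      (VectorField.mlieBracket 𝓘(ℂ, E) V W) p : ∀ i, A i) j = 0
  rw [h2, VectorField.lieBracket_eq]
  show (fderiv ℂ W' p (V' p) - fderiv ℂ V' p (W' p)) j = 0
  rw [Pi.sub_apply, fderiv_coord_zero (hdiff W hW) j (hzero W hW),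
    fderiv_coord_zero (hdiff V hV) j (hzero V hV), sub_zero]

end Vale.Agent.P278.H837
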