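import Vale.Agent.P278.H837.Bracket

/-!
# A diagonal action on a product splits the tangent bundle of the quotient
-/

set_option linter.all false

open Topology Set Filter Module
open scoped ContDiff Manifold

namespace Vale.Agent.P278.H837

open Vale.Agent.P278.StmtF Vale.Agent.P278

universe u v

variable {E : Type*} [NormedAddCommGroup E] [NormedSpace ℂ E]
  {X : Type*} [TopologicalSpace X] [ChartedSpace E X] [IsManifold 𝓘(ℂ, E) ω X]
  {M : Type u} [TopologicalSpace M] [ChartedSpace E M] [IsManifold 𝓘(ℂ, E) ω M]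
  {k : ℕ} {A : Fin k → Type} [∀ i, NormedAddCommGroup (A i)] [∀ i, NormedSpace ℂ (A i)]
  {Y : Fin k → Type u} [∀ i, TopologicalSpace (Y i)] [∀ i, ChartedSpace (A i) (Y i)]
  {Φ : M → ∀ i, Y i} {π : M → X}

variable (A Φ) in
/-- the coordinate directions of `Φ` -/
noncomputable def coordDist (i : Fin k) : Dist E M := fun x =>
  ⨅ j ≠ i, kerD (A j) (fun y => Φ y j) x

theorem mem_coordDist (i : Fin k) (x : M) (v : TangentSpace 𝓘(ℂ, E) x) :
    v ∈ coordDist A Φ i x ↔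
      ∀ j, j ≠ i → mfderiv 𝓘(ℂ, E) 𝓘(ℂ, A j) (fun y => Φ y j) x v = 0 := by
  unfold coordDist
  simp only [Submodule.mem_iInf]
  rfl

/-- Maps compatible with the product structure preserve the coordinate directions. -/
theorem coordDist_map (hΦ : ∀ i, ContMDiff 𝓘(ℂ, E) 𝓘(ℂ, A i) ω fun m => Φ m i)
    (f : M → M) (hf : ContMDiff 𝓘(ℂ, E) 𝓘(ℂ, E) ω f) (g : ∀ i, Y i → Y i)
    (hg : ∀ i, ContMDiff 𝓘(ℂ, A i) 𝓘(ℂ, A i) ω (g i)) (hfg : ∀ m i, Φ (f m) i = g i (Φ m i))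
    (i : Fin k) (x : M) (v : TangentSpace 𝓘(ℂ, E) x) (hv : v ∈ coordDist A Φ i x) :
    mfderiv 𝓘(ℂ, E) 𝓘(ℂ, E) f x v ∈ coordDist A Φ i (f x) := by
  rw [mem_coordDist] at hv ⊢
  intro j hj
  have e1 := mfderiv_comp x ((hΦ j).mdifferentiable (by simp) (f x))
    (hf.mdifferentiable (by simp) x)
  have e2 := mfderiv_comp x ((hg j).mdifferentiable (by simp) (Φ x j))
    ((hΦ j).mdifferentiable (by simp) x)
  have e3 : (fun m => Φ m j) ∘ f = g j ∘ fun m => Φ m j := funext fun m => hfg m j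
  have e4 : ∀ (a b : M → Y j), a = b → ∀ w : E,
      (show A j from mfderiv 𝓘(ℂ, E) 𝓘(ℂ, A j) a x w) = mfderiv 𝓘(ℂ, E) 𝓘(ℂ, A j) b x w := by
    rintro _ _ rfl w; rfl
  have h1 := congrArg (fun L => L v) e1
  have h2 := congrArg (fun L => L v) e2
  have h3 := e4 _ _ e3 v
  have h4 : mfderiv 𝓘(ℂ, A j) 𝓘(ℂ, A j) (g j) (Φ x j)
      (mfderiv 𝓘(ℂ, E) 𝓘(ℂ, A j) (fun y => Φ y j) x v) = 0 := by
    rw [hv j hj]
    exact map_zero _
  exact (h1.symm.trans (h3.trans (h2.trans h4)) : _)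

variable (hπl : IsLocalDiffeomorph 𝓘(ℂ, E) 𝓘(ℂ, E) ω π) in
/-- derivatives of deck transformations and of the covering -/
theorem mfderiv_deck (hπl : IsLocalDiffeomorph 𝓘(ℂ, E) 𝓘(ℂ, E) ω π) (γ : Deck π) (x : M) (v : E) :
    (show E from mfderiv 𝓘(ℂ, E) 𝓘(ℂ, E) π ((γ : M ≃ₜ M) x)
      (mfderiv 𝓘(ℂ, E) 𝓘(ℂ, E) (γ : M ≃ₜ M) x v)) = mfderiv 𝓘(ℂ, E) 𝓘(ℂ, E) π x v := by
  have e := mfderiv_comp x (hπl.contMDiff.mdifferentiable (by simp) ((γ : M ≃ₜ M) x))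
    ((contMDiff_deck hπl γ).mdifferentiable (by simp) x)
  have e2 : π ∘ (γ : M ≃ₜ M) = π := funext fun m => γ.2 m
  have key : ∀ (f : M → X) (hf : f = π) (w : E),
      (show E from mfderiv 𝓘(ℂ, E) 𝓘(ℂ, E) f x w) = mfderiv 𝓘(ℂ, E) 𝓘(ℂ, E) π x w := by
    rintro _ rfl w; rfl
  exact ((congrArg (fun L => L v) e).symm).trans (key _ e2 v)

/-- The derivative of the covering as a linear equivalence of `E`. -/
theorem bijective_mfderiv (hπl : IsLocalDiffeomorph 𝓘(ℂ, E) 𝓘(ℂ, E) ω π) (x : M) :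
    Function.Bijective (mfderiv 𝓘(ℂ, E) 𝓘(ℂ, E) π x) := by
  have h := hπl x
  exact ⟨(h.mfderivToContinuousLinearEquiv (by simp)).injective,
    (h.mfderivToContinuousLinearEquiv (by simp)).surjective⟩

end Vale.Agent.P278.H837
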