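import Vale.Agent.P278.H837.Converse

/-!
# A diagonal action on a product splits the tangent bundle of the quotient (2)
-/

set_option linter.all false

open Topology Set Filter Module
open scoped ContDiff Manifold

namespace Vale.Agent.P278.H837

open Vale.Agent.P278.StmtF Vale.Agent.P278

universe u v

variable {E : Type*} [NormedAddCommGroup E] [NormedSpace ℂ E]
  {X : Type*} [TopologicalSpace X] [ChartedSpace E X] [IsManifold 𝓘(ℂ, E) ω X]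
  {M : Type u} [TopologicalSpace M] [ChartedSpace E M] [IsManifold 𝓘(ℂ, E) ω M]
  {k : ℕ} {A : Fin k → Type} [∀ i, NormedAddCommGroup (A i)] [∀ i, NormedSpace ℂ (A i)]
  {Y : Fin k → Type u} [∀ i, TopologicalSpace (Y i)] [∀ i, ChartedSpace (A i) (Y i)]
  {Φ : M → ∀ i, Y i} {π : M → X}

/-- the image of the coordinate directions under a section of `π` -/
noncomputable def downDist (A : Fin k → Type) [∀ i, NormedAddCommGroup (A i)]
    [∀ i, NormedSpace ℂ (A i)] [∀ i, ChartedSpace (A i) (Y i)] (Φ : M → ∀ i, Y i) (π : M → X)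
    (σ : X → M) (i : Fin k) : Dist E X := fun x =>
  (Submodule.map (show E →ₗ[ℂ] E from (mfderiv 𝓘(ℂ, E) 𝓘(ℂ, E) π (σ x)).toLinearMap)
    (show Submodule ℂ E from coordDist A Φ i (σ x)) : Submodule ℂ E)

theorem mem_downDist (σ : X → M) (i : Fin k) (x : X) (v : E) :
    (show TangentSpace 𝓘(ℂ, E) x from v) ∈ downDist A Φ π σ i x ↔
      ∃ w : E, (show TangentSpace 𝓘(ℂ, E) (σ x) from w) ∈ coordDist A Φ i (σ x) ∧
        (show E from mfderiv 𝓘(ℂ, E) 𝓘(ℂ, E) π (σ x) w) = v := Iff.rfl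

/-- The pull back of the image is the family of coordinate directions. -/
theorem pull_downDist (hπl : IsLocalDiffeomorph 𝓘(ℂ, E) 𝓘(ℂ, E) ω π)
    (hΦ : ∀ i, ContMDiff 𝓘(ℂ, E) 𝓘(ℂ, A i) ω fun m => Φ m i)
    (htr : ∀ m m', π m = π m' → ∃ γ : Deck π, (γ : M ≃ₜ M) m = m')
    (hdiag : ∀ γ : Deck π, ∃ g : ∀ i, Y i → Y i,
      (∀ i, ContMDiff 𝓘(ℂ, A i) 𝓘(ℂ, A i) ω (g i)) ∧
      ∀ m i, Φ ((γ : M ≃ₜ M) m) i = g i (Φ m i))
    (σ : X → M) (hσ : ∀ x, π (σ x) = x) (i : Fin k) (m : M) :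
    (downDist A Φ π σ i (π m)).comap (mfderiv 𝓘(ℂ, E) 𝓘(ℂ, E) π m).toLinearMap =
      coordDist A Φ i m := by
  obtain ⟨γ, hγ⟩ := htr (σ (π m)) m (hσ (π m))
  have hpres : ∀ (γ : Deck π) (x : M) (v : TangentSpace 𝓘(ℂ, E) x), v ∈ coordDist A Φ i x →
      mfderiv 𝓘(ℂ, E) 𝓘(ℂ, E) (γ : M ≃ₜ M) x v ∈ coordDist A Φ i ((γ : M ≃ₜ M) x) := by
    intro γ x v hv
    obtain ⟨g, hg, hfg⟩ := hdiag γ
    exact coordDist_map hΦ (γ : M ≃ₜ M) (contMDiff_deck hπl γ) g hg hfg i x v hv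
  -- transport along equality of points
  have tr : ∀ (a b : M) (h : a = b) (w : E),
      (show TangentSpace 𝓘(ℂ, E) a from w) ∈ coordDist A Φ i a →
        (show TangentSpace 𝓘(ℂ, E) b from w) ∈ coordDist A Φ i b := by
    rintro _ _ rfl w h; exact h
  have trd : ∀ (a b : M) (h : a = b) (w : E),
      (show E from mfderiv 𝓘(ℂ, E) 𝓘(ℂ, E) π a w) = mfderiv 𝓘(ℂ, E) 𝓘(ℂ, E) π b w := by
    rintro _ _ rfl w; rfl
  ext v
  rw [Submodule.mem_comap]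
  constructor
  · intro hv
    obtain ⟨w, hw, hwv⟩ := (mem_downDist (A := A) (Φ := Φ) (π := π) σ i (π m) _).1 hv
    have h1 := hpres γ (σ (π m)) w hw
    have h2 := tr _ _ hγ _ h1
    have h3 := mfderiv_deck hπl γ (σ (π m)) w
    have h4 := trd _ _ hγ (mfderiv 𝓘(ℂ, E) 𝓘(ℂ, E) (γ : M ≃ₜ M) (σ (π m)) w)
    have h5 : (show E from mfderiv 𝓘(ℂ, E) 𝓘(ℂ, E) (γ : M ≃ₜ M) (σ (π m)) w) = v := by
      apply (bijective_mfderiv hπl m).1
      exact (h4.symm.trans h3).trans hwv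
    rw [← h5]
    exact h2
  · intro hv
    have hγ' : ((γ⁻¹ : Deck π) : M ≃ₜ M) m = σ (π m) := by
      have h := (γ : M ≃ₜ M).symm_apply_apply (σ (π m))
      rw [hγ] at h
      exact h
    have h1 := hpres γ⁻¹ m v hv
    have h2 := tr _ _ hγ' _ h1
    have h3 := mfderiv_deck hπl γ⁻¹ m v
    have h4 := trd _ _ hγ' (mfderiv 𝓘(ℂ, E) 𝓘(ℂ, E) ((γ⁻¹ : Deck π) : M ≃ₜ M) m v)
    refine (mem_downDist (A := A) (Φ := Φ) (π := π) σ i (π m) _).2 ⟨_, h2, ?_⟩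
    exact h4.symm.trans h3

/-- **Local product charts.** -/
theorem exists_locProd (hπl : IsLocalDiffeomorph 𝓘(ℂ, E) 𝓘(ℂ, E) ω π)
    (hmf : ∀ i, IsManifold 𝓘(ℂ, A i) ω (Y i)) (hB : IsBihol E A Φ) (F : Fin k → Dist E X)
    (hF : ∀ i m, (F i (π m)).comap (mfderiv 𝓘(ℂ, E) 𝓘(ℂ, E) π m).toLinearMap =
      coordDist A Φ i m) (m₀ : M) :
    ∃ ψ : OpenPartialHomeomorph X (∀ i, A i), π m₀ ∈ ψ.source ∧ IsLocProd F ψ := by
  have hΦ : ContMDiff 𝓘(ℂ, E) (piModel ℂ A) ω Φ := hB.2.contMDiff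
  have hΦi : ∀ i, ContMDiff 𝓘(ℂ, E) 𝓘(ℂ, A i) ω fun m => Φ m i := fun i => contMDiff_pi_iff.1 hΦ i
  set Ψ : Diffeomorph 𝓘(ℂ, E) (piModel ℂ A) M (∀ i, Y i) ω :=
    hB.2.diffeomorphOfBijective hB.1 with hΨ
  have hΨΦ : ∀ m, Ψ m = Φ m := fun m => rfl
  obtain ⟨Θ, hm₀, hΘ⟩ := hπl m₀
  set T : OpenPartialHomeomorph M X := Θ.toOpenPartialHomeomorph with hT
  have hTs : T.source = Θ.source := rfl
  have hTt : T.target = Θ.target := rfl
  set C : OpenPartialHomeomorph (∀ i, Y i) (∀ i, A i) :=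
    OpenPartialHomeomorph.pi fun i => chartAt (A i) (Φ m₀ i) with hC
  set ψ : OpenPartialHomeomorph X (∀ i, A i) :=
    T.symm.trans (Ψ.toHomeomorph.toOpenPartialHomeomorph.trans C) with hψ
  have hψ1 : ∀ x i, ψ x i = chartAt (A i) (Φ m₀ i) (Φ (T.symm x) i) := fun x i => rfl
  have hψ2 : ∀ q, ψ.symm q = T (Ψ.symm fun i => (chartAt (A i) (Φ m₀ i)).symm (q i)) :=
    fun q => rfl
  have hsrc : ∀ x, x ∈ ψ.source ↔ x ∈ T.target ∧ ∀ i, Φ (T.symm x) i ∈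
      (chartAt (A i) (Φ m₀ i)).source := by
    intro x
    rw [hψ, OpenPartialHomeomorph.trans_source, OpenPartialHomeomorph.trans_source]
    constructor
    · rintro ⟨h1, h2, h3⟩
      exact ⟨h1, fun i => h3 i trivial⟩
    · rintro ⟨h1, h2⟩
      exact ⟨h1, trivial, fun i _ => h2 i⟩
  have htgt : ∀ q, q ∈ ψ.target → (∀ i, q i ∈ (chartAt (A i) (Φ m₀ i)).target) ∧
      (Ψ.symm fun i => (chartAt (A i) (Φ m₀ i)).symm (q i)) ∈ T.source := by
    intro q hq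
    rw [hψ, OpenPartialHomeomorph.trans_target, OpenPartialHomeomorph.trans_target] at hq
    obtain ⟨⟨h1, h2⟩, h3⟩ := hq
    exact ⟨fun i => h1 i trivial, h3⟩
  have hTsm : ContMDiffOn 𝓘(ℂ, E) 𝓘(ℂ, E) ω T.symm T.target := Θ.contMDiffOn_invFun
  have hTm : ContMDiffOn 𝓘(ℂ, E) 𝓘(ℂ, E) ω T T.source := Θ.contMDiffOn_toFun
  have hcomp : ∀ x ∈ ψ.source, ∀ i, ContMDiffAt 𝓘(ℂ, E) 𝓘(ℂ, A i) ω (fun x => ψ x i) x := by
    intro x hx i
    have := hmf i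
    obtain ⟨h1, h2⟩ := (hsrc x).1 hx
    have h3 : ContMDiffAt 𝓘(ℂ, E) 𝓘(ℂ, E) ω T.symm x :=
      hTsm.contMDiffAt (T.open_target.mem_nhds h1)
    have h4 : ContMDiffAt 𝓘(ℂ, A i) 𝓘(ℂ, A i) ω (chartAt (A i) (Φ m₀ i)) (Φ (T.symm x) i) :=
      contMDiffOn_chart.contMDiffAt ((chartAt (A i) (Φ m₀ i)).open_source.mem_nhds (h2 i))
    exact h4.comp x ((hΦi i (T.symm x)).comp x h3)
  have hsm : ContMDiffOn 𝓘(ℂ, E) 𝓘(ℂ, ∀ i, A i) ω ψ ψ.source := by
    intro x hx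
    apply ContMDiffAt.contMDiffWithinAt
    rw [contMDiffAt_pi_space]
    exact hcomp x hx
  have hss : ContMDiffOn 𝓘(ℂ, ∀ i, A i) 𝓘(ℂ, E) ω ψ.symm ψ.target := by
    intro q hq
    apply ContMDiffAt.contMDiffWithinAt
    obtain ⟨h1, h2⟩ := htgt q hq
    have h3 : ContMDiffAt 𝓘(ℂ, ∀ i, A i) (piModel ℂ A) ω
        (fun q : ∀ i, A i => fun i => (chartAt (A i) (Φ m₀ i)).symm (q i)) q := by
      rw [contMDiffAt_pi_iff]
      intro i
      have := hmf i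
      have h4 : ContMDiffAt 𝓘(ℂ, A i) 𝓘(ℂ, A i) ω (chartAt (A i) (Φ m₀ i)).symm (q i) :=
        contMDiffOn_chart_symm.contMDiffAt
          ((chartAt (A i) (Φ m₀ i)).open_target.mem_nhds (h1 i))
      have h5 : ContMDiffAt 𝓘(ℂ, ∀ i, A i) 𝓘(ℂ, A i) ω (fun q : ∀ i, A i => q i) q :=
        contMDiffAt_pi_space.1 contMDiffAt_id i
      exact h4.comp q h5
    have h6 : ContMDiffAt (piModel ℂ A) 𝓘(ℂ, E) ω Ψ.symm
        (fun i => (chartAt (A i) (Φ m₀ i)).symm (q i)) := Ψ.symm.contMDiff _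
    have h7 := h6.comp q h3
    have h8 : ContMDiffAt 𝓘(ℂ, E) 𝓘(ℂ, E) ω T
        (Ψ.symm fun i => (chartAt (A i) (Φ m₀ i)).symm (q i)) :=
      hTm.contMDiffAt (T.open_source.mem_nhds h2)
    exact ContMDiffAt.comp q (g := T)
      (f := fun q : ∀ i, A i => Ψ.symm fun i => (chartAt (A i) (Φ m₀ i)).symm (q i)) h8 h7
  refine ⟨ψ, ?_, hsm, hss, ?_⟩
  · rw [hsrc]
    have h1 : π m₀ = T m₀ := hΘ hm₀
    have h2 : T.symm (π m₀) = m₀ := by rw [h1]; exact T.left_inv hm₀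
    refine ⟨by rw [h1]; exact T.map_source hm₀, fun i => ?_⟩
    rw [h2]
    exact mem_chart_source _ _
  · intro x hx i v
    obtain ⟨h1, h2⟩ := (hsrc x).1 hx
    have hTx : T (T.symm x) = x := T.right_inv h1
    have hπx : π (T.symm x) = x := by
      rw [hΘ (T.map_target h1)]
      exact hTx
    have h3 : ContMDiffAt 𝓘(ℂ, E) 𝓘(ℂ, E) ω T.symm x :=
      hTsm.contMDiffAt (T.open_target.mem_nhds h1)
    set w : TangentSpace 𝓘(ℂ, E) (T.symm x) := mfderiv 𝓘(ℂ, E) 𝓘(ℂ, E) T.symm x v with hw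
    -- the image of `w` is `v`
    have hwv : (show E from mfderiv 𝓘(ℂ, E) 𝓘(ℂ, E) π (T.symm x) w) = v := by
      have e := mfderiv_comp x (hπl.contMDiff.mdifferentiable (by simp) (T.symm x))
        (h3.mdifferentiableAt (by simp))
      have e2 : mfderiv 𝓘(ℂ, E) 𝓘(ℂ, E) (π ∘ T.symm) x = mfderiv 𝓘(ℂ, E) 𝓘(ℂ, E) (@id X) x := by
        apply Filter.EventuallyEq.mfderiv_eq
        filter_upwards [T.open_target.mem_nhds h1] with y hy
        show π (T.symm y) = y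
        rw [hΘ (T.map_target hy)]
        exact T.right_inv hy
      rw [mfderiv_id] at e2
      have h4 := congrArg (fun L => L v) e
      have h5 := congrArg (fun L => L v) e2
      exact h4.symm.trans h5
    have tr : ∀ (a b : X) (h : a = b) (w : E),
        (show TangentSpace 𝓘(ℂ, E) a from w) ∈ F i a ↔
          (show TangentSpace 𝓘(ℂ, E) b from w) ∈ F i b := by
      rintro _ _ rfl w; rfl
    have h4 : v ∈ F i x ↔ w ∈ coordDist A Φ i (T.symm x) := by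
      rw [← hF i (T.symm x), Submodule.mem_comap]
      refine (tr _ _ hπx.symm v).trans ?_
      rw [← hwv]
      rfl
    rw [h4, mem_coordDist]
    refine forall₂_congr fun j hj => ?_
    have := hmf j
    have h5 : ContMDiffAt 𝓘(ℂ, A j) 𝓘(ℂ, A j) ω (chartAt (A j) (Φ m₀ j)) (Φ (T.symm x) j) :=
      contMDiffOn_chart.contMDiffAt ((chartAt (A j) (Φ m₀ j)).open_source.mem_nhds (h2 j))
    have h6 : (show ∀ i, A i from mfderiv 𝓘(ℂ, E) 𝓘(ℂ, ∀ i, A i) ψ x v) j =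
        mfderiv 𝓘(ℂ, E) 𝓘(ℂ, A j) (fun x => ψ x j) x v := by
      have h7 : MDifferentiableAt 𝓘(ℂ, E) 𝓘(ℂ, ∀ i, A i) ψ x :=
        (hsm.contMDiffAt (ψ.open_source.mem_nhds hx)).mdifferentiableAt (by simp)
      have h8 : HasMFDerivAt 𝓘(ℂ, ∀ i, A i) 𝓘(ℂ, A j) (fun q : ∀ i, A i => q j) (ψ x)
          (ContinuousLinearMap.proj (R := ℂ) (φ := A) j) :=
        ((ContinuousLinearMap.proj (R := ℂ) (φ := A) j).hasFDerivAt).hasMFDerivAt
      have h9 := (h8.comp x h7.hasMFDerivAt).mfderiv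
      exact (congrArg (fun L => L v) h9).symm
    have h7 : mfderiv 𝓘(ℂ, E) 𝓘(ℂ, A j) (fun x => ψ x j) x v =
        mfderiv 𝓘(ℂ, A j) 𝓘(ℂ, A j) (chartAt (A j) (Φ m₀ j)) (Φ (T.symm x) j)
          (mfderiv 𝓘(ℂ, E) 𝓘(ℂ, A j) (fun y => Φ y j) (T.symm x) w) := by
      have e1 := mfderiv_comp x ((h5.mdifferentiableAt (by simp)).comp (T.symm x)
        ((hΦi j).mdifferentiable (by simp) (T.symm x))) (h3.mdifferentiableAt (by simp))
      have e2 := mfderiv_comp (T.symm x) (h5.mdifferentiableAt (by simp))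
        ((hΦi j).mdifferentiable (by simp) (T.symm x))
      rw [e2] at e1
      exact congrArg (fun L => L v) e1
    rw [h6, h7]
    constructor
    · intro h0
      rw [h0]
      exact map_zero _
    · intro h0
      have hmd : (chartAt (A j) (Φ m₀ j)).MDifferentiable 𝓘(ℂ, A j) 𝓘(ℂ, A j) :=
        mdifferentiable_chart _
      apply hmd.mfderiv_injective (h2 j)
      rw [h0]
      exact (map_zero _).symm

end Vale.Agent.P278.H837
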