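import Vale.Agent.P278.H837.Main

/-!
# The deck group acts diagonally and transitively on the fibres
-/

set_option linter.all false

open Topology Set Filter
open scoped ContDiff Manifold

namespace Vale.Agent.P278.H837

open Vale.Agent.P278.StmtF Vale.Agent.P278

universe u v

/-- Deck transformations of a simply connected covering act transitively on the fibres. -/
theorem exists_deck {M X : Type*} [TopologicalSpace M] [TopologicalSpace X]
    [SimplyConnectedSpace M] [LocallyPathConnectedSpace M] {π : M → X} (hπ : IsCoveringMap π)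
    {m m' : M} (h : π m = π m') : ∃ γ : Deck π, (γ : M ≃ₜ M) m = m' := by
  obtain ⟨f, ⟨hf1, hf2⟩, -⟩ :=
    hπ.existsUnique_continuousMap_lifts ⟨π, hπ.continuous⟩ m m' h.symm
  obtain ⟨g, ⟨hg1, hg2⟩, -⟩ :=
    hπ.existsUnique_continuousMap_lifts ⟨π, hπ.continuous⟩ m' m h
  have hf2' : ∀ x, π (f x) = π x := fun x => congrFun hf2 x
  have hg2' : ∀ x, π (g x) = π x := fun x => congrFun hg2 x
  have uni : ∀ (a : M) (F : C(M, M)), F a = a → (∀ x, π (F x) = π x) → ∀ x, F x = x := by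
    intro a F hF1 hF2 x
    have hu := hπ.existsUnique_continuousMap_lifts ⟨π, hπ.continuous⟩ a a rfl
    have h1 := hu.unique (y₁ := F) (y₂ := ContinuousMap.id M) ⟨hF1, funext hF2⟩ ⟨rfl, rfl⟩
    rw [h1]; rfl
  have hgf : ∀ x, g (f x) = x := uni m (g.comp f)
    (by show g (f m) = m; rw [hf1, hg1]) fun x => by
      show π (g (f x)) = π x
      rw [hg2', hf2']
  have hfg : ∀ x, f (g x) = x := uni m' (f.comp g)
    (by show f (g m') = m'; rw [hg1, hf1]) fun x => by
      show π (f (g x)) = π x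
      rw [hf2', hg2']
  exact ⟨⟨{ toFun := f
            invFun := g
            left_inv := hgf
            right_inv := hfg
            continuous_toFun := f.continuous
            continuous_invFun := g.continuous }, hf2'⟩, hf1⟩

section
variable {E : Type*} [NormedAddCommGroup E] [NormedSpace ℂ E]
  {X : Type*} [TopologicalSpace X] [ChartedSpace E X]
  {M : Type u} [TopologicalSpace M] [ChartedSpace E M] [IsManifold 𝓘(ℂ, E) ω M]
  {k : ℕ} {G : Fin k → Dist E M}
  {A : Fin k → Type} [∀ i, NormedAddCommGroup (A i)] [∀ i, NormedSpace ℂ (A i)]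
  {Y : Fin k → Type u} [∀ i, TopologicalSpace (Y i)] [∀ i, ChartedSpace (A i) (Y i)]
  {Φ : M → ∀ i, Y i} {π : M → X}

/-- **The deck group acts diagonally.** -/
theorem IsProduct.exists_action [Nonempty M] (hπl : IsLocalDiffeomorph 𝓘(ℂ, E) 𝓘(ℂ, E) ω π)
    (F : Fin k → Dist E X)
    (h : IsProduct (fun i x => (F i (π x)).comap (mfderiv 𝓘(ℂ, E) 𝓘(ℂ, E) π x).toLinearMap)
      A Y Φ) :
    ∃ ρ : ∀ i, Deck π →* Equiv.Perm (Y i),
      (∀ i γ, ContMDiff 𝓘(ℂ, A i) 𝓘(ℂ, A i) ω (ρ i γ)) ∧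
      ∀ (γ : Deck π) m i, Φ ((γ : M ≃ₜ M) m) i = ρ i γ (Φ m i) := by
  have H : ∀ γ : Deck π, ∃ g : ∀ i, Y i → Y i, (∀ i, ContMDiff 𝓘(ℂ, A i) 𝓘(ℂ, A i) ω (g i)) ∧
      ∀ m i, Φ ((γ : M ≃ₜ M) m) i = g i (Φ m i) := fun γ =>
    h.map h (γ : M ≃ₜ M) (contMDiff_deck hπl γ) fun i x v hv => deck_pull hπl (F i) γ x v hv
  choose g hg1 hg2 using H
  have hone : ∀ i, g 1 i = id := by
    intro i
    funext t
    obtain ⟨m, rfl⟩ := h.surj i t
    show g 1 i (Φ m i) = Φ m i
    rw [← hg2]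
    rfl
  have hmul : ∀ (γ δ : Deck π) i, g (γ * δ) i = g γ i ∘ g δ i := by
    intro γ δ i
    funext t
    obtain ⟨m, rfl⟩ := h.surj i t
    show g (γ * δ) i (Φ m i) = g γ i (g δ i (Φ m i))
    rw [← hg2 (γ * δ) m i, ← hg2 δ m i, ← hg2 γ _ i]
    rfl
  let f : ∀ i, Deck π →* Function.End (Y i) := fun i =>
    { toFun := fun γ => g γ i
      map_one' := hone i
      map_mul' := fun γ δ => hmul γ δ i }
  exact ⟨fun i => (f i).toHomPerm, fun i γ => hg1 γ i, fun γ m i => hg2 γ m i⟩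

end

end Vale.Agent.P278.H837
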