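import Vale.Agent.P278.StmtF

/-!
# Definitions for the equivariant and unique form of Beauville's product decomposition
-/

open Topology Set Filter
open scoped ContDiff Manifold

namespace Vale.Agent.P278.H837

open Vale.Agent.P278.StmtF

universe u

/-- The group of deck transformations of `π : M → X`: the homeomorphisms `γ` of `M` with
`π ∘ γ = π`. -/
def Deck {M X : Type*} [TopologicalSpace M] (π : M → X) : Subgroup (M ≃ₜ M) where
  carrier := {γ | ∀ m, π (γ m) = π m}
  one_mem' := fun _ => rfl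
  mul_mem' := fun {a b} ha hb m => (ha (b m)).trans (hb m)
  inv_mem' := fun {a} ha m => by
    have h := ha (a⁻¹ m)
    rw [← Homeomorph.mul_apply, mul_inv_cancel, Homeomorph.one_apply] at h
    exact h.symm

section
variable {E : Type*} [NormedAddCommGroup E] [NormedSpace ℂ E]
  {M : Type u} [TopologicalSpace M] [ChartedSpace E M]

/-- `Φ : M → ∏ Y i` is a product decomposition of `M` compatible with the distributions `G i`: the
`Y i` are simply connected complex manifolds, `Φ` is biholomorphic and `dΦ` maps `G i` onto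
`pr_i^* T_{Y i}`, i.e. `G i` is the intersection of the kernels of the `d(Φ_j)`, `j ≠ i`. (So
`InducesProduct G` says that there is such a `Φ`.) -/
structure IsProduct {k : ℕ} (G : Fin k → Dist E M)
    (A : Fin k → Type) [∀ i, NormedAddCommGroup (A i)] [∀ i, NormedSpace ℂ (A i)]
    (Y : Fin k → Type u) [∀ i, TopologicalSpace (Y i)] [∀ i, ChartedSpace (A i) (Y i)]
    (Φ : M → ∀ i, Y i) : Prop where
  factor : ∀ i, IsSCManifold (A i) (Y i)
  bihol : IsBihol E A Φ
  ker : ∀ i x, G i x = ⨅ j ≠ i, kerD (A j) (fun y => Φ y j) x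

/-- The deck group of `π` acts diagonally through `Φ`: there are actions `ρ i` of the deck group on the
`Y i` by holomorphic maps (hence by biholomorphisms) such that `Φ` is equivariant. -/
def DeckDiagonal {X : Type*} (π : M → X) {k : ℕ}
    (A : Fin k → Type) [∀ i, NormedAddCommGroup (A i)] [∀ i, NormedSpace ℂ (A i)]
    {Y : Fin k → Type u} [∀ i, TopologicalSpace (Y i)] [∀ i, ChartedSpace (A i) (Y i)]
    (Φ : M → ∀ i, Y i) : Prop :=
  ∃ ρ : ∀ i, Deck π →* Equiv.Perm (Y i),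
    (∀ i γ, ContMDiff 𝓘(ℂ, A i) 𝓘(ℂ, A i) ω (ρ i γ)) ∧
    ∀ (γ : Deck π) m i, Φ ((γ : M ≃ₜ M) m) i = ρ i γ (Φ m i)

/-- `Φ'` differs from `Φ` only by biholomorphic maps of the factors. -/
def SameUpToFactors {k : ℕ}
    (A : Fin k → Type) [∀ i, NormedAddCommGroup (A i)] [∀ i, NormedSpace ℂ (A i)]
    {Y : Fin k → Type u} [∀ i, TopologicalSpace (Y i)] [∀ i, ChartedSpace (A i) (Y i)]
    (A' : Fin k → Type) [∀ i, NormedAddCommGroup (A' i)] [∀ i, NormedSpace ℂ (A' i)]
    {Y' : Fin k → Type u} [∀ i, TopologicalSpace (Y' i)] [∀ i, ChartedSpace (A' i) (Y' i)]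
    (Φ : M → ∀ i, Y i) (Φ' : M → ∀ i, Y' i) : Prop :=
  ∃ g : ∀ i, Y i ≃ Y' i,
    (∀ i, ContMDiff 𝓘(ℂ, A i) 𝓘(ℂ, A' i) ω (g i) ∧ ContMDiff 𝓘(ℂ, A' i) 𝓘(ℂ, A i) ω (g i).symm) ∧
    ∀ m i, Φ' m i = g i (Φ m i)

/-- Through `Φ`, every holomorphic map `f : M → M` which respects the distributions `G i` is a
product of holomorphic maps `Y i → Y i`. -/
def MapsAreProducts {k : ℕ} (G : Fin k → Dist E M)
    (A : Fin k → Type) [∀ i, NormedAddCommGroup (A i)] [∀ i, NormedSpace ℂ (A i)]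
    {Y : Fin k → Type u} [∀ i, TopologicalSpace (Y i)] [∀ i, ChartedSpace (A i) (Y i)]
    (Φ : M → ∀ i, Y i) : Prop :=
  ∀ f : M → M, ContMDiff 𝓘(ℂ, E) 𝓘(ℂ, E) ω f →
    (∀ i x, ∀ v ∈ G i x, mfderiv 𝓘(ℂ, E) 𝓘(ℂ, E) f x v ∈ G i (f x)) →
    ∃ g : ∀ i, Y i → Y i, (∀ i, ContMDiff 𝓘(ℂ, A i) 𝓘(ℂ, A i) ω (g i)) ∧
      ∀ m i, Φ (f m) i = g i (Φ m i)

end

section
variable {E : Type*} [NormedAddCommGroup E] [NormedSpace ℂ E]
  {X : Type*} [TopologicalSpace X] [ChartedSpace E X]
  {M : Type u} [TopologicalSpace M] [ChartedSpace E M]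

/-- The pull back `π^* F` of the distribution `F` by `π`. -/
noncomputable def pull (π : M → X) (F : Dist E X) : Dist E M := fun m =>
  (F (π m)).comap (mfderiv 𝓘(ℂ, E) 𝓘(ℂ, E) π m).toLinearMap

/-- `T_X` is the direct sum of the holomorphic subbundles `F i`, all of whose partial sums are
integrable: the hypothesis of Beauville's conjecture. -/
structure IsSplitting [IsManifold 𝓘(ℂ, E) 1 X] {k : ℕ} (F : Fin k → Dist E X) : Prop where
  subbundle : ∀ i, IsSubbundle (F i)
  integrable : ∀ I : Set (Fin k), IsIntegrable fun x => ⨆ i ∈ I, F i x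
  direct : ∀ x, DirectSum.IsInternal fun i => F i x

end

end Vale.Agent.P278.H837
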