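import Vale.Agent.P278.H837.Converse2

/-!
# Splittings of the tangent bundle and diagonal product decompositions of the universal covering
-/

set_option linter.all false

open Topology Set Filter Module
open scoped ContDiff Manifold

namespace Vale.Agent.P278.H837

open Vale.Agent.P278.StmtF Vale.Agent.P278

universe u v

/-- A covering of a connected space by a nonempty space is surjective. -/
theorem surjective_of_covering {M X : Type*} [TopologicalSpace M] [TopologicalSpace X]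
    [Nonempty M] [PreconnectedSpace X] {π : M → X} (hπ : IsCoveringMap π) :
    Function.Surjective π := by
  have ho : IsOpen (range π) := hπ.isOpenMap.isOpen_range
  have hc : IsClosed (range π) := by
    rw [← isOpen_compl_iff, isOpen_iff_mem_nhds]
    intro x hx
    obtain ⟨-, U, hxU, hU, hfU, H, hH⟩ := hπ x
    filter_upwards [hU.mem_nhds hxU] with y hy
    rintro ⟨e, rfl⟩
    refine hx ⟨(H.symm (⟨x, hxU⟩, (H ⟨e, hy⟩).2)).1, ?_⟩
    rw [← hH, Homeomorph.apply_symm_apply]
  have h1 := IsClopen.eq_univ ⟨hc, ho⟩ (range_nonempty π)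
  exact range_eq_univ.1 h1

variable {E : Type*} [NormedAddCommGroup E] [NormedSpace ℂ E]
  {X : Type*} [TopologicalSpace X] [ChartedSpace E X] [IsManifold 𝓘(ℂ, E) ω X]
  {M : Type u} [TopologicalSpace M] [ChartedSpace E M] [IsManifold 𝓘(ℂ, E) ω M]
  {π : M → X} {k : ℕ}

/-- A distribution is determined by its pull back. -/
theorem pull_injective (hπl : IsLocalDiffeomorph 𝓘(ℂ, E) 𝓘(ℂ, E) ω π)
    (hs : Function.Surjective π) {F F' : Dist E X} (h : pull π F = pull π F') : F = F' := by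
  funext x
  obtain ⟨m, rfl⟩ := hs x
  ext v
  obtain ⟨w, rfl⟩ := (bijective_mfderiv hπl m).2 v
  have h1 := congrFun h m
  exact (Submodule.ext_iff.1 h1 w : _)

/-- **Converse.** A product decomposition of the universal covering with a diagonal action of the
deck group comes from a splitting of the tangent bundle, and only from one. -/
theorem exists_splitting [FiniteDimensional ℂ E] [ConnectedSpace X] [SimplyConnectedSpace M]
    (hπ : IsCoveringMap π) (hπl : IsLocalDiffeomorph 𝓘(ℂ, E) 𝓘(ℂ, E) ω π)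
    (A : Fin k → Type) [∀ i, NormedAddCommGroup (A i)] [∀ i, NormedSpace ℂ (A i)]
    (Y : Fin k → Type u) [∀ i, TopologicalSpace (Y i)] [∀ i, ChartedSpace (A i) (Y i)]
    (Φ : M → ∀ i, Y i) (hY : ∀ i, IsSCManifold (A i) (Y i)) (hB : IsBihol E A Φ)
    (hD : DeckDiagonal π A Φ) :
    ∃! F : Fin k → Dist E X, IsSplitting F ∧ IsProduct (fun i => pull π (F i)) A Y Φ := by
  have : CompleteSpace E := FiniteDimensional.complete ℂ E
  have hfd : ∀ i, FiniteDimensional ℂ (A i) := fun i => (hY i).fd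
  have hcs : ∀ i, CompleteSpace (A i) := fun i => FiniteDimensional.complete ℂ (A i)
  have : LocallyPathConnectedSpace M := ChartedSpace.locallyPathConnectedSpace E M
  have hne : Nonempty M := inferInstance
  have hs : Function.Surjective π := surjective_of_covering hπ
  choose σ hσ using hs
  have hΦi : ∀ i, ContMDiff 𝓘(ℂ, E) 𝓘(ℂ, A i) ω fun m => Φ m i :=
    fun i => contMDiff_pi_iff.1 hB.2.contMDiff i
  have hdiag : ∀ γ : Deck π, ∃ g : ∀ i, Y i → Y i,
      (∀ i, ContMDiff 𝓘(ℂ, A i) 𝓘(ℂ, A i) ω (g i)) ∧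
      ∀ m i, Φ ((γ : M ≃ₜ M) m) i = g i (Φ m i) := by
    obtain ⟨ρ, h1, h2⟩ := hD
    exact fun γ => ⟨fun i => ρ i γ, fun i => h1 i γ, fun m i => h2 γ m i⟩
  have hpull : ∀ i m, (downDist (E := E) A Φ π σ i (π m)).comap
      (mfderiv 𝓘(ℂ, E) 𝓘(ℂ, E) π m).toLinearMap = coordDist A Φ i m := fun i m =>
    pull_downDist hπl hΦi (fun m m' h => exists_deck hπ h) hdiag σ hσ i m
  have hloc : ∀ x : X, ∃ ψ : OpenPartialHomeomorph X (∀ i, A i), x ∈ ψ.source ∧
      IsLocProd (downDist (E := E) A Φ π σ) ψ := by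
    intro x
    obtain ⟨m, rfl⟩ : ∃ m, π m = x := ⟨σ x, hσ x⟩
    exact exists_locProd hπl (fun i => (hY i).mfd) hB _ hpull m
  refine ⟨downDist (E := E) A Φ π σ, ⟨⟨fun i x₀ => ?_, fun I U V W hU hV hW x hx => ?_, fun x => ?_⟩,
    ⟨hY, hB, fun i m => hpull i m⟩⟩, ?_⟩
  · obtain ⟨ψ, hx, h⟩ := hloc x₀
    exact h.frame hx i
  · obtain ⟨ψ, hxψ, h⟩ := hloc x
    exact h.bracket I U V W hU hV hW hx hxψ
  · obtain ⟨ψ, hxψ, h⟩ := hloc x
    exact h.isInternal hxψ
  · rintro F' ⟨-, hF'⟩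
    funext i
    apply pull_injective hπl (fun x => ⟨σ x, hσ x⟩)
    funext m
    exact (hF'.ker i m).trans (hpull i m).symm

/-- **Beauville's conjecture with the diagonal action**, uniqueness and functoriality. -/
theorem splitting_product [FiniteDimensional ℂ E] [CompactSpace X] [T2Space X] [ConnectedSpace X]
    [SimplyConnectedSpace M] (hπ : IsCoveringMap π)
    (hπl : IsLocalDiffeomorph 𝓘(ℂ, E) 𝓘(ℂ, E) ω π) (h : Form E X) (hh : IsKahler h)
    (F : Fin k → Dist E X) (hF : IsSplitting F) :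
    ∃ (A : Fin k → Type) (_ : ∀ i, NormedAddCommGroup (A i)) (_ : ∀ i, NormedSpace ℂ (A i))
      (Y : Fin k → Type u) (_ : ∀ i, TopologicalSpace (Y i)) (_ : ∀ i, ChartedSpace (A i) (Y i))
      (Φ : M → ∀ i, Y i), IsProduct (fun i => pull π (F i)) A Y Φ ∧ DeckDiagonal π A Φ := by
  have hne : Nonempty M := inferInstance
  obtain ⟨A, i1, i2, Y, i3, i4, Φ, h1, h2, h3⟩ :=
    Vale.Agent.P278.Full.bridgeF π hπ hπl h hh F hF.subbundle hF.integrable hF.direct
  have hP : IsProduct (fun i => pull π (F i)) A Y Φ := ⟨h1, h2, h3⟩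
  exact ⟨A, i1, i2, Y, i3, i4, Φ, hP, hP.exists_action hπl F⟩

/-- All parts together. -/
theorem final [FiniteDimensional ℂ E] [ConnectedSpace X] [SimplyConnectedSpace M]
    (π : M → X) (hπ : IsCoveringMap π) (hπl : IsLocalDiffeomorph 𝓘(ℂ, E) 𝓘(ℂ, E) ω π) (k : ℕ) :
    (CompactSpace X → T2Space X → ∀ h : Form E X, IsKahler h →
      ∀ F : Fin k → Dist E X, IsSplitting F → InducesProduct fun i => pull π (F i)) ∧
    (∀ (F : Fin k → Dist E X)
      (A : Fin k → Type) [∀ i, NormedAddCommGroup (A i)] [∀ i, NormedSpace ℂ (A i)]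
      (Y : Fin k → Type u) [∀ i, TopologicalSpace (Y i)] [∀ i, ChartedSpace (A i) (Y i)]
      (Φ : M → ∀ i, Y i), IsProduct (fun i => pull π (F i)) A Y Φ →
      DeckDiagonal π A Φ ∧ MapsAreProducts (fun i => pull π (F i)) A Φ ∧
      ∀ (A' : Fin k → Type) [∀ i, NormedAddCommGroup (A' i)] [∀ i, NormedSpace ℂ (A' i)]
        (Y' : Fin k → Type u) [∀ i, TopologicalSpace (Y' i)] [∀ i, ChartedSpace (A' i) (Y' i)]
        (Φ' : M → ∀ i, Y' i), IsProduct (fun i => pull π (F i)) A' Y' Φ' →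
        SameUpToFactors A A' Φ Φ') ∧
    (∀ (A : Fin k → Type) [∀ i, NormedAddCommGroup (A i)] [∀ i, NormedSpace ℂ (A i)]
      (Y : Fin k → Type u) [∀ i, TopologicalSpace (Y i)] [∀ i, ChartedSpace (A i) (Y i)]
      (Φ : M → ∀ i, Y i), (∀ i, IsSCManifold (A i) (Y i)) → IsBihol E A Φ → DeckDiagonal π A Φ →
      ∃! F : Fin k → Dist E X, IsSplitting F ∧ IsProduct (fun i => pull π (F i)) A Y Φ) ∧
    (∀ m m' : M, π m = π m' ↔ ∃ γ : Deck π, (γ : M ≃ₜ M) m = m') := by
  have hne : Nonempty M := inferInstance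
  have hlpc : LocallyPathConnectedSpace M := ChartedSpace.locallyPathConnectedSpace E M
  refine ⟨?_, ?_, ?_, ?_⟩
  · intro hc ht h hh F hF
    exact Vale.Agent.P278.Full.bridgeF π hπ hπl h hh F hF.subbundle hF.integrable hF.direct
  · intro F A _ _ Y _ _ Φ hP
    refine ⟨hP.exists_action hπl F, fun f hf hfG => hP.map hP f hf hfG, ?_⟩
    intro A' _ _ Y' _ _ Φ' hP'
    exact hP.unique hP'
  · intro A _ _ Y _ _ Φ hY hB hD
    exact exists_splitting hπ hπl A Y Φ hY hB hD
  · intro m m'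
    constructor
    · exact fun h => exists_deck hπ h
    · rintro ⟨γ, rfl⟩
      exact (γ.2 m).symm

end Vale.Agent.P278.H837
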