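import Vale.Agent.P278.H837.DeckAct

/-!
# Distributions which are locally the coordinate directions of a product
-/

set_option linter.all false

open Topology Set Filter Module
open scoped ContDiff Manifold

namespace Vale.Agent.P278.H837

open Vale.Agent.P278.StmtF Vale.Agent.P278

universe u v

variable {E : Type*} [NormedAddCommGroup E] [NormedSpace ℂ E]
  {X : Type*} [TopologicalSpace X] [ChartedSpace E X] [IsManifold 𝓘(ℂ, E) ω X]
  {k : ℕ} {A : Fin k → Type} [∀ i, NormedAddCommGroup (A i)] [∀ i, NormedSpace ℂ (A i)]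

/-- `F` is given near `x₀` by the coordinate directions of the chart `ψ`. -/
structure IsLocProd (F : Fin k → Dist E X) (ψ : OpenPartialHomeomorph X (∀ i, A i)) : Prop where
  smooth : ContMDiffOn 𝓘(ℂ, E) 𝓘(ℂ, ∀ i, A i) ω ψ ψ.source
  smooth_symm : ContMDiffOn 𝓘(ℂ, ∀ i, A i) 𝓘(ℂ, E) ω ψ.symm ψ.target
  mem_iff : ∀ x ∈ ψ.source, ∀ i, ∀ v : TangentSpace 𝓘(ℂ, E) x, v ∈ F i x ↔
    ∀ j, j ≠ i → (show ∀ i, A i from mfderiv 𝓘(ℂ, E) 𝓘(ℂ, ∀ i, A i) ψ x v) j = 0

section
variable {F : Fin k → Dist E X} {ψ : OpenPartialHomeomorph X (∀ i, A i)}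

theorem IsLocProd.mdiff (h : IsLocProd F ψ) :
    ψ.MDifferentiable 𝓘(ℂ, E) 𝓘(ℂ, ∀ i, A i) :=
  ⟨h.smooth.mdifferentiableOn (by simp), h.smooth_symm.mdifferentiableOn (by simp)⟩

/-- the derivative of the chart -/
noncomputable def IsLocProd.d (h : IsLocProd F ψ) {x : X} (hx : x ∈ ψ.source) :
    TangentSpace 𝓘(ℂ, E) x ≃ₗ[ℂ] (∀ i, A i) :=
  (h.mdiff.mfderiv hx : TangentSpace 𝓘(ℂ, E) x ≃L[ℂ]
    TangentSpace 𝓘(ℂ, ∀ i, A i) (ψ x)).toLinearEquiv

theorem IsLocProd.d_apply (h : IsLocProd F ψ) {x : X} (hx : x ∈ ψ.source)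
    (v : TangentSpace 𝓘(ℂ, E) x) : h.d hx v = mfderiv 𝓘(ℂ, E) 𝓘(ℂ, ∀ i, A i) ψ x v := rfl

theorem IsLocProd.mem (h : IsLocProd F ψ) {x : X} (hx : x ∈ ψ.source) (i : Fin k)
    (v : TangentSpace 𝓘(ℂ, E) x) : v ∈ F i x ↔ ∀ j, j ≠ i → h.d hx v j = 0 :=
  h.mem_iff x hx i v

theorem IsLocProd.sum (h : IsLocProd F ψ) {x : X} (hx : x ∈ ψ.source)
    (v : TangentSpace 𝓘(ℂ, E) x) :
    v = ∑ i, (h.d hx).symm (Pi.single i (h.d hx v i)) := by
  apply (h.d hx).injective
  rw [map_sum]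
  simp only [LinearEquiv.apply_symm_apply]
  exact (Finset.univ_sum_single (h.d hx v)).symm

theorem IsLocProd.single_mem (h : IsLocProd F ψ) {x : X} (hx : x ∈ ψ.source) (i : Fin k)
    (a : A i) : (h.d hx).symm (Pi.single i a) ∈ F i x := by
  rw [h.mem hx]
  intro j hj
  rw [LinearEquiv.apply_symm_apply, Pi.single_eq_of_ne hj]

theorem IsLocProd.mem_sup (h : IsLocProd F ψ) {x : X} (hx : x ∈ ψ.source) (I : Set (Fin k))
    (v : TangentSpace 𝓘(ℂ, E) x) : v ∈ ⨆ i ∈ I, F i x ↔ ∀ j, j ∉ I → h.d hx v j = 0 := by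
  constructor
  · intro hv j hj
    have hle : (⨆ i ∈ I, F i x) ≤ LinearMap.ker ((LinearMap.proj j : (∀ i, A i) →ₗ[ℂ] A j) ∘ₗ
        (h.d hx).toLinearMap) := by
      refine iSup₂_le fun i hi w hw => ?_
      rw [LinearMap.mem_ker]
      exact (h.mem hx i w).1 hw j fun hji => hj (hji ▸ hi)
    exact hle hv
  · intro hv
    rw [h.sum hx v]
    refine Submodule.sum_mem _ fun i _ => ?_
    by_cases hi : i ∈ I
    · exact (le_iSup₂ (f := fun i (_ : i ∈ I) => F i x) i hi) (h.single_mem hx i _)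
    · rw [hv i hi]
      simp

theorem IsLocProd.isInternal (h : IsLocProd F ψ) {x : X} (hx : x ∈ ψ.source) :
    DirectSum.IsInternal fun i => F i x := by
  rw [DirectSum.isInternal_submodule_iff_iSupIndep_and_iSup_eq_top]
  constructor
  · intro i
    rw [Submodule.disjoint_def]
    intro v hv hv'
    have h1 := (h.mem hx i v).1 hv
    have h2 : v ∈ ⨆ j ∈ {j : Fin k | j ≠ i}, F j x := hv'
    have h3 := (h.mem_sup hx _ v).1 h2 i (by simp)
    apply (h.d hx).injective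
    rw [map_zero]
    funext j
    by_cases hj : j = i
    · subst hj; exact h3
    · exact h1 j hj
  · rw [eq_top_iff]
    intro v _
    rw [h.sum hx v]
    exact Submodule.sum_mem _ fun i _ => (le_iSup (fun i => F i x) i) (h.single_mem hx i _)

theorem IsLocProd.inverse (h : IsLocProd F ψ) {x : X} (hx : x ∈ ψ.source) (w : ∀ i, A i) :
    (mfderiv 𝓘(ℂ, E) 𝓘(ℂ, ∀ i, A i) ψ x).inverse w = (h.d hx).symm w := by
  have h1 : mfderiv 𝓘(ℂ, E) 𝓘(ℂ, ∀ i, A i) ψ x = ((h.mdiff.mfderiv hx :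
    TangentSpace 𝓘(ℂ, E) x ≃L[ℂ] TangentSpace 𝓘(ℂ, ∀ i, A i) (ψ x)) :
      TangentSpace 𝓘(ℂ, E) x →L[ℂ] TangentSpace 𝓘(ℂ, ∀ i, A i) (ψ x)) := rfl
  rw [h1, ContinuousLinearMap.inverse_equiv]
  rfl

theorem IsLocProd.frame [CompleteSpace E] [∀ i, FiniteDimensional ℂ (A i)] (h : IsLocProd F ψ)
    {x₀ : X} (hx₀ : x₀ ∈ ψ.source) (i : Fin k) :
    ∃ U ∈ 𝓝 x₀, ∃ (r : ℕ) (s : Fin r → ∀ x : X, TangentSpace 𝓘(ℂ, E) x),
      (∀ j, IsHolSec (F i) U (s j)) ∧ ∀ x ∈ U, LinearIndependent ℂ (fun j => s j x) ∧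
        Submodule.span ℂ (range fun j => s j x) = F i x := by
  classical
  have : ∀ i, CompleteSpace (A i) := fun i => FiniteDimensional.complete ℂ (A i)
  set b := Module.finBasis ℂ (A i) with hb
  set s : Fin (finrank ℂ (A i)) → ∀ x : X, TangentSpace 𝓘(ℂ, E) x := fun j =>
    VectorField.mpullback 𝓘(ℂ, E) 𝓘(ℂ, ∀ i, A i) ψ (fun _ => (Pi.single i (b j) : ∀ i, A i))
    with hs
  have hsx : ∀ x (hx : x ∈ ψ.source) j, s j x = (h.d hx).symm (Pi.single i (b j)) := by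
    intro x hx j
    exact h.inverse hx _
  refine ⟨ψ.source, ψ.open_source.mem_nhds hx₀, finrank ℂ (A i), s, fun j => ⟨?_, ?_⟩,
    fun x hx => ⟨?_, ?_⟩⟩
  · intro x hx
    apply ContMDiffAt.contMDiffWithinAt
    refine ContMDiffAt.mpullback_vectorField_preimage (n := ω) ?_ ?_ ?_ (by simp)
    · exact contMDiffAt_vectorSpace_iff_contDiffAt.2 contDiffAt_const
    · exact h.smooth.contMDiffAt (ψ.open_source.mem_nhds hx)
    · exact ⟨h.mdiff.mfderiv hx, rfl⟩
  · intro x hx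
    rw [hsx x hx]
    exact h.single_mem hx i _
  · have h1 : LinearIndependent ℂ (fun j => (Pi.single i (b j) : ∀ i, A i)) :=
      b.linearIndependent.map' (LinearMap.single ℂ A i)
        (LinearMap.ker_eq_bot.2 (Pi.single_injective i))
    have h2 := h1.map' (h.d hx).symm.toLinearMap (LinearEquiv.ker _)
    have h3 : (fun j => s j x) = (h.d hx).symm.toLinearMap ∘
        fun j => (Pi.single i (b j) : ∀ i, A i) := funext fun j => hsx x hx j
    rw [h3]
    exact h2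
  · apply le_antisymm
    · rw [Submodule.span_le]
      rintro _ ⟨j, rfl⟩
      show s j x ∈ F i x
      rw [hsx x hx]
      exact h.single_mem hx i _
    · intro v hv
      have h1 := (h.mem hx i v).1 hv
      have h2 : v = ∑ j, (b.repr (h.d hx v i) j) • s j x := by
        apply (h.d hx).injective
        rw [map_sum]
        simp only [hsx x hx, map_smul, LinearEquiv.apply_symm_apply]
        funext l
        rw [Finset.sum_apply]
        by_cases hl : l = i
        · subst hl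
          simp only [Pi.smul_apply, Pi.single_eq_same]
          exact (b.sum_repr _).symm
        · rw [h1 l hl]
          simp only [Pi.smul_apply, Pi.single_eq_of_ne hl, smul_zero, Finset.sum_const_zero]
      rw [h2]
      exact Submodule.sum_mem _ fun j _ => Submodule.smul_mem _ _ (Submodule.subset_span ⟨j, rfl⟩)

end

end Vale.Agent.P278.H837
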