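import Vale.Agent.P278.Full.FinalF
import Vale.Agent.P278.H837.Defs

/-!
# Maps preserving a product decomposition are product maps
-/

set_option linter.all false

open Topology Set Filter
open scoped ContDiff Manifold

namespace Vale.Agent.P278.H837

open Vale.Agent.P278.StmtF Vale.Agent.P278

universe u v

section
variable {E : Type*} [NormedAddCommGroup E] [NormedSpace ℂ E]
  {M : Type u} [TopologicalSpace M] [ChartedSpace E M] [IsManifold 𝓘(ℂ, E) ω M]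
  {k : ℕ} {G : Fin k → Dist E M}
  {A : Fin k → Type} [∀ i, NormedAddCommGroup (A i)] [∀ i, NormedSpace ℂ (A i)]
  {Y : Fin k → Type u} [∀ i, TopologicalSpace (Y i)] [∀ i, ChartedSpace (A i) (Y i)]
  {Φ : M → ∀ i, Y i}

/-- the coordinates of a biholomorphic `Φ` are holomorphic -/
theorem IsProduct.contMDiff (h : IsProduct G A Y Φ) :
    ContMDiff 𝓘(ℂ, E) (piModel ℂ A) ω Φ := h.bihol.2.contMDiff

theorem IsProduct.contMDiff_coord (h : IsProduct G A Y Φ) (i : Fin k) :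
    ContMDiff 𝓘(ℂ, E) 𝓘(ℂ, A i) ω (fun m => Φ m i) := contMDiff_pi_iff.1 h.contMDiff i

/-- the inclusion of a factor -/
theorem contMDiff_update [DecidableEq (Fin k)] (y : ∀ i, Y i) (i : Fin k) :
    ContMDiff 𝓘(ℂ, A i) (piModel ℂ A) ω (fun t : Y i => Function.update y i t) := by
  rw [contMDiff_pi_iff]
  intro j
  by_cases hj : j = i
  · subst hj
    simp only [Function.update_self]
    exact contMDiff_id
  · simpa [Function.update_of_ne hj] using contMDiff_const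

/-- **Main lemma.** A holomorphic map killed by all the `G i`, `i ≠ j`, factors through the
projection to `Y j`. -/
theorem IsProduct.factor_map [Nonempty M] (h : IsProduct G A Y Φ)
    {B : Type*} [NormedAddCommGroup B] [NormedSpace ℂ B]
    {Z : Type*} [TopologicalSpace Z] [ChartedSpace B Z] [IsManifold 𝓘(ℂ, B) ω Z]
    (q : M → Z) (hq : ContMDiff 𝓘(ℂ, E) 𝓘(ℂ, B) ω q) (j : Fin k)
    (hker : ∀ i, i ≠ j → ∀ x, ∀ v ∈ G i x, mfderiv 𝓘(ℂ, E) 𝓘(ℂ, B) q x v = 0) :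
    ∃ g : Y j → Z, ContMDiff 𝓘(ℂ, A j) 𝓘(ℂ, B) ω g ∧ ∀ m, q m = g (Φ m j) := by
  classical
  have hmf : ∀ i, IsManifold 𝓘(ℂ, A i) ω (Y i) := fun i => (h.factor i).mfd
  have hpc : ∀ i, PreconnectedSpace (Y i) := fun i => by
    have := (h.factor i).simply
    infer_instance
  set Ψ : Diffeomorph 𝓘(ℂ, E) (piModel ℂ A) M (∀ i, Y i) ω :=
    h.bihol.2.diffeomorphOfBijective h.bihol.1 with hΨ
  have hΨΦ : ∀ m, Ψ m = Φ m := fun m => rfl
  have hsΦ : ∀ y, Φ (Ψ.symm y) = y := fun y => by rw [← hΨΦ]; exact Ψ.apply_symm_apply y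
  have hΦs : ∀ m, Ψ.symm (Φ m) = m := fun m => by rw [← hΨΦ]; exact Ψ.symm_apply_apply m
  -- moving one coordinate
  have key : ∀ (y : ∀ i, Y i) (i : Fin k), i ≠ j → ∀ t : Y i,
      q (Ψ.symm (Function.update y i t)) = q (Ψ.symm y) := by
    intro y i hij t
    have hmfi := hmf i
    have hpci := hpc i
    have hu : ContMDiff 𝓘(ℂ, A i) 𝓘(ℂ, E) ω (fun t : Y i => Ψ.symm (Function.update y i t)) :=
      Ψ.symm.contMDiff.comp (contMDiff_update y i)
    have hqu : ContMDiff 𝓘(ℂ, A i) 𝓘(ℂ, B) ω (q ∘ fun t : Y i => Ψ.symm (Function.update y i t)) :=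
      hq.comp hu
    have h0 : ∀ t : Y i, mfderiv 𝓘(ℂ, A i) 𝓘(ℂ, B)
        (q ∘ fun t : Y i => Ψ.symm (Function.update y i t)) t = 0 := by
      intro t
      rw [mfderiv_comp t (hq.mdifferentiable (by simp) _) (hu.mdifferentiable (by simp) _)]
      ext v
      refine hker i hij _ _ ?_
      rw [h.ker i]
      simp only [Submodule.mem_iInf]
      intro l hl
      show mfderiv 𝓘(ℂ, E) 𝓘(ℂ, A l) (fun m => Φ m l) _ (mfderiv 𝓘(ℂ, A i) 𝓘(ℂ, E)
        (fun t : Y i => Ψ.symm (Function.update y i t)) t v) = 0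
      have e := mfderiv_comp t ((h.contMDiff_coord l).mdifferentiable (by simp)
        (Ψ.symm (Function.update y i t))) (hu.mdifferentiable (by simp) t)
      have e2 : (fun m => Φ m l) ∘ (fun t : Y i => Ψ.symm (Function.update y i t)) =
          fun _ => y l := by
        funext t
        simp only [Function.comp_apply, hsΦ, Function.update_of_ne hl]
      rw [e2, mfderiv_const] at e
      exact (congrArg (fun L => L v) e).symm
    have := eq_of_mfderiv_eq_zero (hqu.mdifferentiable (by simp)) h0 t (y i)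
    simpa using this
  -- moving a set of coordinates
  have key2 : ∀ (s : Finset (Fin k)), j ∉ s → ∀ y y' : ∀ i, Y i, (∀ i, i ∉ s → y i = y' i) →
      q (Ψ.symm y) = q (Ψ.symm y') := by
    intro s
    induction s using Finset.induction_on with
    | empty =>
      intro _ y y' hy
      have : y = y' := funext fun i => hy i (by simp)
      rw [this]
    | insert a s ha ih =>
      intro hj y y' hy
      have haj : a ≠ j := fun h => hj (by simp [h])
      rw [← key y a haj (y' a)]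
      refine ih (fun h => hj (by simp [h])) _ _ fun i hi => ?_
      by_cases hia : i = a
      · subst hia; simp
      · rw [Function.update_of_ne hia]
        exact hy i (by simp [hia, hi])
  obtain ⟨m₀⟩ := ‹Nonempty M›
  refine ⟨fun t => q (Ψ.symm (Function.update (Φ m₀) j t)),
    hq.comp (Ψ.symm.contMDiff.comp (contMDiff_update _ j)), fun m => ?_⟩
  have := key2 (Finset.univ.erase j) (by simp) (Φ m) (Function.update (Φ m₀) j (Φ m j))
    (fun i hi => by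
      have : i = j := by simpa using hi
      subst this
      simp)
  rw [hΦs] at this
  exact this

/-- A holomorphic map which respects the distributions is a product map. -/
theorem IsProduct.map [Nonempty M] (h : IsProduct G A Y Φ)
    {E' : Type*} [NormedAddCommGroup E'] [NormedSpace ℂ E']
    {M' : Type u} [TopologicalSpace M'] [ChartedSpace E' M'] [IsManifold 𝓘(ℂ, E') ω M']
    {G' : Fin k → Dist E' M'}
    {A' : Fin k → Type} [∀ i, NormedAddCommGroup (A' i)] [∀ i, NormedSpace ℂ (A' i)]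
    {Y' : Fin k → Type u} [∀ i, TopologicalSpace (Y' i)] [∀ i, ChartedSpace (A' i) (Y' i)]
    {Φ' : M' → ∀ i, Y' i} (h' : IsProduct G' A' Y' Φ')
    (f : M → M') (hf : ContMDiff 𝓘(ℂ, E) 𝓘(ℂ, E') ω f)
    (hG : ∀ i x, ∀ v ∈ G i x, mfderiv 𝓘(ℂ, E) 𝓘(ℂ, E') f x v ∈ G' i (f x)) :
    ∃ g : ∀ i, Y i → Y' i, (∀ i, ContMDiff 𝓘(ℂ, A i) 𝓘(ℂ, A' i) ω (g i)) ∧
      ∀ m i, Φ' (f m) i = g i (Φ m i) := by
  have hmf : ∀ i, IsManifold 𝓘(ℂ, A' i) ω (Y' i) := fun i => (h'.factor i).mfd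
  have H : ∀ j, ∃ g : Y j → Y' j, ContMDiff 𝓘(ℂ, A j) 𝓘(ℂ, A' j) ω g ∧
      ∀ m, Φ' (f m) j = g (Φ m j) := by
    intro j
    have hmfj := hmf j
    refine h.factor_map (fun m => Φ' (f m) j) ((h'.contMDiff_coord j).comp hf) j ?_
    intro i hij x v hv
    have h1 := hG i x v hv
    rw [h'.ker i] at h1
    simp only [Submodule.mem_iInf] at h1
    have h2 := h1 j (Ne.symm hij)
    have e := mfderiv_comp x ((h'.contMDiff_coord j).mdifferentiable (by simp) (f x))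
      (hf.mdifferentiable (by simp) x)
    have e2 := congrArg (fun L => L v) e
    exact e2.trans h2
  choose g hg1 hg2 using H
  exact ⟨g, hg1, fun m i => hg2 i m⟩

theorem IsProduct.surj [Nonempty M] (h : IsProduct G A Y Φ) (i : Fin k) :
    Function.Surjective fun m => Φ m i := by
  classical
  intro t
  obtain ⟨m₀⟩ := ‹Nonempty M›
  obtain ⟨m, hm⟩ := h.bihol.1.2 (Function.update (Φ m₀) i t)
  exact ⟨m, by simp only [hm, Function.update_self]⟩

/-- **Uniqueness** of the product decomposition. -/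
theorem IsProduct.unique [Nonempty M] (h : IsProduct G A Y Φ)
    {A' : Fin k → Type} [∀ i, NormedAddCommGroup (A' i)] [∀ i, NormedSpace ℂ (A' i)]
    {Y' : Fin k → Type u} [∀ i, TopologicalSpace (Y' i)] [∀ i, ChartedSpace (A' i) (Y' i)]
    {Φ' : M → ∀ i, Y' i} (h' : IsProduct G A' Y' Φ') :
    ∃ g : ∀ i, Y i ≃ Y' i, (∀ i, ContMDiff 𝓘(ℂ, A i) 𝓘(ℂ, A' i) ω (g i) ∧
      ContMDiff 𝓘(ℂ, A' i) 𝓘(ℂ, A i) ω (g i).symm) ∧ ∀ m i, Φ' m i = g i (Φ m i) := by
  have hid : ∀ i x, ∀ v ∈ G i x, mfderiv 𝓘(ℂ, E) 𝓘(ℂ, E) (fun m : M => m) x v ∈ G i x := by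
    intro i x v hv
    have : mfderiv 𝓘(ℂ, E) 𝓘(ℂ, E) (fun m : M => m) x v = v := by
      have e : mfderiv 𝓘(ℂ, E) 𝓘(ℂ, E) (@id M) x = ContinuousLinearMap.id ℂ _ := mfderiv_id
      exact congrArg (fun L => L v) e
    rw [this]
    exact hv
  obtain ⟨g, hg, hgΦ⟩ := h.map h' (fun m => m) contMDiff_id hid
  obtain ⟨g', hg', hgΦ'⟩ := h'.map h (fun m => m) contMDiff_id hid
  refine ⟨fun i => ⟨g i, g' i, fun t => ?_, fun t => ?_⟩, fun i => ⟨hg i, hg' i⟩, hgΦ⟩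
  · obtain ⟨m, rfl⟩ := h.surj i t
    show g' i (g i (Φ m i)) = Φ m i
    rw [← hgΦ, ← hgΦ']
  · obtain ⟨m, rfl⟩ := h'.surj i t
    show g i (g' i (Φ' m i)) = Φ' m i
    rw [← hgΦ', ← hgΦ]

end

section deck
variable {E : Type*} [NormedAddCommGroup E] [NormedSpace ℂ E]
  {X : Type*} [TopologicalSpace X] [ChartedSpace E X]
  {M : Type u} [TopologicalSpace M] [ChartedSpace E M] {π : M → X}

/-- Deck transformations are holomorphic. -/
theorem contMDiff_deck (hπl : IsLocalDiffeomorph 𝓘(ℂ, E) 𝓘(ℂ, E) ω π) (γ : Deck π) :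
    ContMDiff 𝓘(ℂ, E) 𝓘(ℂ, E) ω (γ : M ≃ₜ M) := by
  intro m
  obtain ⟨Θ, hΘm, hΘ⟩ := hπl ((γ : M ≃ₜ M) m)
  have h1 : ContMDiffAt 𝓘(ℂ, E) 𝓘(ℂ, E) ω (fun m' => Θ.symm (π m')) m := by
    have hπ1 : ContMDiffAt 𝓘(ℂ, E) 𝓘(ℂ, E) ω π m := hπl.contMDiff m
    have hmem : π m ∈ Θ.target := by
      rw [← γ.2 m, hΘ hΘm]
      exact Θ.map_source hΘm
    have h2 : ContMDiffAt 𝓘(ℂ, E) 𝓘(ℂ, E) ω Θ.symm (π m) :=
      (Θ.symm.contMDiffOn (π m) hmem).contMDiffAt (Θ.open_target.mem_nhds hmem)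
    exact h2.comp m hπ1
  refine h1.congr_of_eventuallyEq ?_
  have hev : ∀ᶠ m' in 𝓝 m, (γ : M ≃ₜ M) m' ∈ Θ.source :=
    (γ : M ≃ₜ M).continuous.continuousAt.eventually_mem (Θ.open_source.mem_nhds hΘm)
  filter_upwards [hev] with m' hm'
  have h3 : π m' = Θ ((γ : M ≃ₜ M) m') := by rw [← γ.2 m', hΘ hm']
  rw [h3]
  exact (Θ.left_inv hm').symm

/-- Deck transformations preserve pulled back distributions. -/
theorem deck_pull [IsManifold 𝓘(ℂ, E) ω M] (hπl : IsLocalDiffeomorph 𝓘(ℂ, E) 𝓘(ℂ, E) ω π)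
    (F : Dist E X) (γ : Deck π) (x : M) (v : TangentSpace 𝓘(ℂ, E) x)
    (hv : v ∈ (F (π x)).comap (mfderiv 𝓘(ℂ, E) 𝓘(ℂ, E) π x).toLinearMap) :
    mfderiv 𝓘(ℂ, E) 𝓘(ℂ, E) (γ : M ≃ₜ M) x v ∈
      (F (π ((γ : M ≃ₜ M) x))).comap
        (mfderiv 𝓘(ℂ, E) 𝓘(ℂ, E) π ((γ : M ≃ₜ M) x)).toLinearMap := by
  have e := mfderiv_comp x (hπl.contMDiff.mdifferentiable (by simp) ((γ : M ≃ₜ M) x))
    ((contMDiff_deck hπl γ).mdifferentiable (by simp) x)
  have e2 : π ∘ (γ : M ≃ₜ M) = π := funext fun m => γ.2 m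
  have key : ∀ (f : M → X) (hf : f = π) (w : E),
      (show E from mfderiv 𝓘(ℂ, E) 𝓘(ℂ, E) f x w) = mfderiv 𝓘(ℂ, E) 𝓘(ℂ, E) π x w := by
    rintro _ rfl w; rfl
  have key2 : ∀ (y z : X) (h : y = z) (w : E), (show TangentSpace 𝓘(ℂ, E) y from w) ∈ F y →
      (show TangentSpace 𝓘(ℂ, E) z from w) ∈ F z := by
    rintro _ _ rfl w h; exact h
  rw [Submodule.mem_comap] at hv ⊢
  have h1 := key2 _ _ (γ.2 x).symm _ hv
  have h2 := (congrArg (fun L => L v) e)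
  have h3 := key _ e2 v
  have h4 : (show E from (mfderiv 𝓘(ℂ, E) 𝓘(ℂ, E) π ((γ : M ≃ₜ M) x))
      (mfderiv 𝓘(ℂ, E) 𝓘(ℂ, E) (γ : M ≃ₜ M) x v)) = mfderiv 𝓘(ℂ, E) 𝓘(ℂ, E) π x v :=
    h2.symm.trans h3
  show (show TangentSpace 𝓘(ℂ, E) (π ((γ : M ≃ₜ M) x)) from
    (show E from (mfderiv 𝓘(ℂ, E) 𝓘(ℂ, E) π ((γ : M ≃ₜ M) x))
      (mfderiv 𝓘(ℂ, E) 𝓘(ℂ, E) (γ : M ≃ₜ M) x v))) ∈ F (π ((γ : M ≃ₜ M) x))
  rw [h4]
  exact h1

end deck

end Vale.Agent.P278.H837
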